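import Vale.Agent.P011.H261.Rl.Defs
import Vale.Agent.P011.E6.Coord
import Vale.Agent.P011.E6.Ids2
import Vale.Agent.P011.H44.Rl.Cj
import Mathlib.Analysis.SpecialFunctions.Pow.Real

/-!
The scaling of the coordinates: every complex form of the space of hermitian matrices over
octonions is the standard one, and a hermitian form with real weights is a diagonal one.
-/

namespace Vale.Agent.P011.H974.Rl

open Vale.Agent.P011.MPQ Vale.Agent.P011.D4 Vale.Agent.P011.D4.Oct Vale.Agent.P011.E6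
open Vale.Agent.P011.E6.Alb Vale.Agent.P011.H261.Rl Vale.Agent.P011.H44.Rl
open scoped ComplexConjugate

section scal

variable {F : Type} [Field F] {a b c a' b' c' : Fˣ}

/-- The scaling of the coordinates of an octonion. -/
def scal (p q r : Fˣ) : Oct a b c ≃ₗ[F] Oct a' b' c' where
  toFun x := ⟨⟨x.fst.re, p * x.fst.imI, q * x.fst.imJ, p * q * x.fst.imK⟩,
    ⟨r * x.snd.re, r * p * x.snd.imI, r * q * x.snd.imJ, r * p * q * x.snd.imK⟩⟩
  invFun x := ⟨⟨x.fst.re, (p : F)⁻¹ * x.fst.imI, (q : F)⁻¹ * x.fst.imJ,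
      (p * q : F)⁻¹ * x.fst.imK⟩,
    ⟨(r : F)⁻¹ * x.snd.re, (r * p : F)⁻¹ * x.snd.imI, (r * q : F)⁻¹ * x.snd.imJ,
      (r * p * q : F)⁻¹ * x.snd.imK⟩⟩
  left_inv x := by
    have hp := p.ne_zero
    have hq := q.ne_zero
    have hr := r.ne_zero
    apply ext8 <;> simp <;> field_simp
  right_inv x := by
    have hp := p.ne_zero
    have hq := q.ne_zero
    have hr := r.ne_zero
    apply ext8 <;> simp <;> field_simp
  map_add' x y := by
    apply ext8 <;> simp <;> ring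
  map_smul' t x := by
    apply ext8 <;> simp <;> ring

theorem scal_apply (p q r : Fˣ) (x : Oct a b c) : (scal p q r x : Oct a' b' c') =
    ⟨⟨x.fst.re, p * x.fst.imI, q * x.fst.imJ, p * q * x.fst.imK⟩,
      ⟨r * x.snd.re, r * p * x.snd.imI, r * q * x.snd.imJ, r * p * q * x.snd.imK⟩⟩ := rfl

theorem scal_mul {p q r : Fˣ} (ha : (a : F) = p ^ 2 * a') (hb : (b : F) = q ^ 2 * b')
    (hc : (c : F) = r ^ 2 * c') (x y : Oct a b c) :
    (scal p q r (x * y) : Oct a' b' c') = scal p q r x * scal p q r y := by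
  simp only [scal_apply]
  apply ext8 <;> simp [ha, hb, hc] <;> ring

end scal

/-- Weights, twice. -/
theorem wt_wt {F : Type} [Field F] {a b c : Fˣ} (g h : Fin 3 → Fˣ) (x : Alb a b c) :
    wt g (wt h x) = wt (g * h) x := by
  ext1 <;> simp only [wt, Pi.mul_apply, Units.val_mul, smul_smul] <;>
    first | ring1 | (congr 1; ring1)

/-- Weights with a common factor. -/
theorem wt_const {F : Type} [Field F] {a b c : Fˣ} {g h : Fin 3 → Fˣ} {t : F}
    (e : ∀ i, (g i : F) = t * h i) (x : Alb a b c) : wt g x = t ^ 2 • wt h x := by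
  ext1 <;> simp only [wt, e, d1_smul, d2_smul, d3_smul, x1_smul, x2_smul, x3_smul, smul_smul] <;>
    first | ring1 | (congr 1; ring1)

section complex

variable {a b c : ℂˣ}

theorem exists_sq (z : ℂˣ) : ∃ p : ℂˣ, (z : ℂ) = p ^ 2 * ((-1 : ℂˣ) : ℂ) := by
  obtain ⟨p, hp⟩ := IsAlgClosed.exists_pow_nat_eq (-(z : ℂ)) (n := 2) (by norm_num)
  have h0 : p ≠ 0 := by
    rintro rfl
    have := z.ne_zero
    simp at hp
  refine ⟨Units.mk0 p h0, ?_⟩
  rw [Units.val_mk0, hp, Units.val_neg, Units.val_one]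
  ring

/-- Every form is the standard one. -/
theorem exists_std (a b c : ℂˣ) : ∃ S : Alb a b c ≃ₗ[ℂ] VC, ∀ x, cub (S x) = cub x := by
  obtain ⟨p, hp⟩ := exists_sq a
  obtain ⟨q, hq⟩ := exists_sq b
  obtain ⟨r, hr⟩ := exists_sq c
  exact ⟨mapE (scal p q r), fun x => cub_mapE (scal_mul hp hq hr) x⟩

/-- The square root of a real number is real or purely imaginary. -/
theorem exists_sq_real {z : ℂˣ} (hz : conj (z : ℂ) = z) :
    ∃ p s : ℂˣ, (s : ℂ) ^ 2 = 1 ∧ conj (s : ℂ) = s ∧ (z : ℂ) = p ^ 2 * ((-1 : ℂˣ) : ℂ) ∧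
      conj (p : ℂ) = s * p := by
  obtain ⟨x, hx⟩ : ∃ x : ℝ, (x : ℂ) = z := ⟨_, Complex.conj_eq_iff_re.1 hz⟩
  have hx0 : x ≠ 0 := by
    rintro rfl
    exact z.ne_zero (by rw [← hx, Complex.ofReal_zero])
  have h2 : Real.sqrt |x| ≠ 0 := by
    have := abs_pos.2 hx0
    positivity
  have h3 : (Real.sqrt |x| : ℝ) ^ 2 = |x| := Real.sq_sqrt (abs_nonneg x)
  rcases lt_or_gt_of_ne hx0 with h | h
  · refine ⟨Units.mk0 (Real.sqrt |x| : ℂ) (Complex.ofReal_ne_zero.2 h2), 1, ?_, ?_, ?_, ?_⟩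
    · simp
    · simp
    · rw [Units.val_mk0, ← Complex.ofReal_pow, h3, abs_of_neg h, ← hx, Units.val_neg,
        Units.val_one]
      push_cast
      ring
    · rw [Units.val_mk0, Complex.conj_ofReal, Units.val_one, one_mul]
  · refine ⟨Units.mk0 ((Real.sqrt |x| : ℂ) * Complex.I)
      (mul_ne_zero (Complex.ofReal_ne_zero.2 h2) Complex.I_ne_zero), -1, ?_, ?_, ?_, ?_⟩
    · simp
    · simp
    · rw [Units.val_mk0, mul_pow, ← Complex.ofReal_pow, h3, abs_of_pos h, ← hx, Units.val_neg,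
        Units.val_one, Complex.I_sq]
      ring
    · rw [Units.val_mk0, map_mul, Complex.conj_ofReal, Complex.conj_I, Units.val_neg,
        Units.val_one]
      ring

/-- The weights of a real form. -/
theorem exists_weights {γ : Fin 3 → ℝ} (hγ : ∀ i, γ i ≠ 0) : ∃ (t : ℝ) (h e : Fin 3 → ℝ), 0 < t ∧
    (∀ i, h i ≠ 0) ∧ (∀ i, e i ^ 2 = 1) ∧ h 0 * h 1 * h 2 = 1 ∧ ∀ i, h i ^ 2 * e i = t * γ i := by
  have h1 : ∀ i, 0 < Real.sqrt |γ i| := fun i => Real.sqrt_pos.2 (abs_pos.2 (hγ i))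
  have h2 : ∀ i, (Real.sqrt |γ i|) ^ 2 = |γ i| := fun i => Real.sq_sqrt (abs_nonneg _)
  set P : ℝ := Real.sqrt |γ 0| * Real.sqrt |γ 1| * Real.sqrt |γ 2| with hP
  have hP0 : 0 < P := mul_pos (mul_pos (h1 0) (h1 1)) (h1 2)
  set s : ℝ := (P⁻¹) ^ ((3 : ℕ) : ℝ)⁻¹ with hs
  have hs0 : 0 < s := Real.rpow_pos_of_pos (inv_pos.2 hP0) _
  have hs3 : s ^ 3 = P⁻¹ := Real.rpow_inv_natCast_pow (inv_pos.2 hP0).le (by norm_num)
  refine ⟨s ^ 2, fun i => s * Real.sqrt |γ i|, fun i => SignType.sign (γ i), by positivity,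
    fun i => (mul_pos hs0 (h1 i)).ne', fun i => ?_, ?_, fun i => ?_⟩
  · rcases lt_or_gt_of_ne (hγ i) with h | h
    · simp [sign_neg h]
    · simp [sign_pos h]
  · have : s * Real.sqrt |γ 0| * (s * Real.sqrt |γ 1|) * (s * Real.sqrt |γ 2|) = s ^ 3 * P := by
      rw [hP]
      ring
    rw [this, hs3, inv_mul_cancel₀ hP0.ne']
  · have h4 : |γ i| * (SignType.sign (γ i) : ℝ) = γ i := abs_mul_sign (γ i)
    rw [mul_pow, h2]
    linear_combination s ^ 2 * h4

theorem cjo_scal {a' b' c' : ℂˣ} {p q r s t u : ℂˣ} (hp : conj (p : ℂ) = s * p)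
    (hq : conj (q : ℂ) = t * q) (hr : conj (r : ℂ) = u * r) (x : Oct a b c) :
    cjo (scal p q r x : Oct a' b' c') =
      (scal s t u (scal p q r (cjo x) : Oct a' b' c') : Oct a' b' c') := by
  simp only [scal_apply, cjo, cjq]
  apply ext8 <;> simp only [map_mul, hp, hq, hr] <;> ring

theorem cj_mapE {a' b' c' : ℂˣ} {p q r s t u : ℂˣ} (hp : conj (p : ℂ) = s * p)
    (hq : conj (q : ℂ) = t * q) (hr : conj (r : ℂ) = u * r) (x : Alb a b c) :
    cj (mapE (scal p q r) x : Alb a' b' c') =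
      mapE (scal s t u) (mapE (scal p q r) (cj x) : Alb a' b' c') := by
  ext1 <;> simp only [mapE_apply, omapA, cj, cjo_scal hp hq hr]

theorem cjo_smul_real {t : ℂ} (ht : conj t = t) (x : OC) : cjo (t • x) = t • cjo x := by
  rw [cjo_smul, ht]

theorem cj_wt {g : Fin 3 → ℂˣ} (hg : ∀ i, conj (g i : ℂ) = g i) (x : VC) :
    cj (wt g x) = wt g (cj x) := by
  ext1 <;> simp only [cj, wt, map_mul, map_pow, hg]
  · exact cjo_smul_real (by rw [map_mul, hg, hg]) _
  · exact cjo_smul_real (by rw [map_mul, hg, hg]) _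
  · exact cjo_smul_real (by rw [map_mul, hg, hg]) _

theorem unit_sq {s : ℂˣ} (h : (s : ℂ) ^ 2 = 1) : (s : ℂ) * s = 1 := by
  rw [← sq, h]

theorem scal_scal {s t u : ℂˣ} (hs : (s : ℂ) ^ 2 = 1) (ht : (t : ℂ) ^ 2 = 1)
    (hu : (u : ℂ) ^ 2 = 1) (x : OC) : (scal s t u (scal s t u x : OC) : OC) = x := by
  simp only [scal_apply]
  apply ext8
  · rfl
  · change (s : ℂ) * (s * _) = _
    linear_combination x.fst.imI * hs
  · change (t : ℂ) * (t * _) = _
    linear_combination x.fst.imJ * ht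
  · change (s : ℂ) * t * (s * t * _) = _
    linear_combination x.fst.imK * (hs * t ^ 2 + ht)
  · change (u : ℂ) * (u * _) = _
    linear_combination x.snd.re * hu
  · change (u : ℂ) * s * (u * s * _) = _
    linear_combination x.snd.imI * (hu * s ^ 2 + hs)
  · change (u : ℂ) * t * (u * t * _) = _
    linear_combination x.snd.imJ * (hu * t ^ 2 + ht)
  · change (u : ℂ) * s * t * (u * s * t * _) = _
    linear_combination x.snd.imK * (hu * (s * t) ^ 2 + hs * t ^ 2 + ht)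

/-- A hermitian form with real weights is a diagonal one. -/
theorem exists_inert (ha : conj (a : ℂ) = a) (hb : conj (b : ℂ) = b) (hc : conj (c : ℂ) = c)
    {g : Fin 3 → ℂˣ} (hg : ∀ i, conj (g i : ℂ) = g i) :
    ∃ (S : Alb a b c ≃ₗ[ℂ] VC) (J : VC →L[ℂ] VC) (r : ℝ), 0 < r ∧
      (∀ x, cub (S x) = cub x) ∧ (∀ x y, inner ℂ (J (S y)) (S x) = r * hC g x y) ∧
      J * J = 1 ∧ (∀ x, cub (J x) = cub x) ∧ ∀ x y, inner ℂ (J x) (J y) = inner ℂ x y := by
  obtain ⟨p, s, hs, hs', hp, hp'⟩ := exists_sq_real ha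
  obtain ⟨q, t, ht, ht', hq, hq'⟩ := exists_sq_real hb
  obtain ⟨r, u, hu, hu', hr, hr'⟩ := exists_sq_real hc
  have hgx : ∀ i, ∃ x : ℝ, (x : ℂ) = g i := fun i => ⟨_, Complex.conj_eq_iff_re.1 (hg i)⟩
  choose γ hγ using hgx
  have hγ0 : ∀ i, γ i ≠ 0 := fun i h => (g i).ne_zero (by rw [← hγ, h, Complex.ofReal_zero])
  obtain ⟨τ, h, e, hτ, hh, he, hprod, hrel⟩ := exists_weights hγ0
  have he0 : ∀ i, e i ≠ 0 := fun i h0 => by
    have := he i
    rw [h0] at this
    norm_num at this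
  obtain ⟨H, hH⟩ : ∃ H : Fin 3 → ℂˣ, ∀ i, (H i : ℂ) = h i :=
    ⟨fun i => Units.mk0 (h i : ℂ) (Complex.ofReal_ne_zero.2 (hh i)), fun i => rfl⟩
  obtain ⟨ε, hε⟩ : ∃ ε : Fin 3 → ℂˣ, ∀ i, (ε i : ℂ) = e i :=
    ⟨fun i => Units.mk0 (e i : ℂ) (Complex.ofReal_ne_zero.2 (he0 i)), fun i => rfl⟩
  have hHc : ∀ i, conj (H i : ℂ) = H i := fun i => by rw [hH, Complex.conj_ofReal]
  have hεc : ∀ i, conj (ε i : ℂ) = ε i := fun i => by rw [hε, Complex.conj_ofReal]
  have hε2 : ∀ i, (ε i : ℂ) ^ 2 = 1 := fun i => by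
    rw [hε, ← Complex.ofReal_pow, he, Complex.ofReal_one]
  have hφ : ∀ x y : Oct a b c, (scal p q r (x * y) : OC) = scal p q r x * scal p q r y :=
    scal_mul hp hq hr
  have hθ : ∀ x y : OC, (scal s t u (x * y) : OC) = scal s t u x * scal s t u y := by
    apply scal_mul
    · rw [hs, one_mul]
    · rw [ht, one_mul]
    · rw [hu, one_mul]
  have hθθ : ∀ x : VC, mapE (scal s t u) (mapE (scal s t u) x : VC) = x := by
    intro x
    ext1 <;> simp only [mapE_apply, omapA, scal_scal hs ht hu]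
  have hε1 : ∀ x : VC, wt ε (wt ε x) = x := by
    intro x
    have e1 : wt (fun _ => 1 : Fin 3 → ℂˣ) x = x := by
      ext1 <;> simp [wt]
    rw [wt_wt]
    rw [show ε * ε = fun _ => 1 from funext fun i => Units.ext (unit_sq (hε2 i)), e1]
  have hJJ : ∀ x : VC, wt ε (mapE (scal s t u) (wt ε (mapE (scal s t u) x : VC))) = x := by
    intro x
    rw [wt_mapE, hε1, hθθ]
  have hJt : ∀ x y : VC, tf (wt ε (mapE (scal s t u) x : VC)) (wt ε (mapE (scal s t u) y)) =
      tf x y := by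
    intro x y
    rw [tf_wt, hε1, tf_mapE hθ]
  have hJc : ∀ x : VC, cj (wt ε (mapE (scal s t u) x : VC)) = wt ε (mapE (scal s t u) (cj x)) := by
    intro x
    have h1 : conj (s : ℂ) = ((1 : ℂˣ) : ℂ) * s := by rw [hs', Units.val_one, one_mul]
    have h2 : conj (t : ℂ) = ((1 : ℂˣ) : ℂ) * t := by rw [ht', Units.val_one, one_mul]
    have h3 : conj (u : ℂ) = ((1 : ℂˣ) : ℂ) * u := by rw [hu', Units.val_one, one_mul]
    rw [cj_wt hεc, cj_mapE h1 h2 h3]
    congr 1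
    have h4 : ∀ y : OC, (scal 1 1 1 y : OC) = y := by
      intro y
      rw [scal_apply]
      apply ext8 <;> simp
    ext1 <;> simp only [mapE_apply, omapA, h4]
  refine ⟨(mapE (scal p q r)).trans (wtE H),
    LinearMap.toContinuousLinearMap ((mapE (scal s t u)).trans (wtE ε) : VC ≃ₗ[ℂ] VC).toLinearMap,
    τ ^ 2, by positivity, fun x => ?_, fun x y => ?_, ?_, fun x => ?_, fun x y => ?_⟩
  · change cub (wt H (mapE (scal p q r) x)) = cub x
    rw [cub_wt, cub_mapE hφ, gam, hH, hH, hH, ← Complex.ofReal_mul, ← Complex.ofReal_mul, hprod]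
    simp
  · change inner ℂ (wt ε (mapE (scal s t u) (wt H (mapE (scal p q r) y))))
      (wt H (mapE (scal p q r) x)) = _
    have h6 : ∀ z : VC, mapE (scal s t u) (wt H (mapE (scal s t u) z : VC)) = wt H z := by
      intro z
      rw [wt_mapE, hθθ]
    have h5 : ∀ i, ((H * ε * H) i : ℂ) = (τ : ℂ) * (g i : ℂ) := by
      intro i
      rw [Pi.mul_apply, Pi.mul_apply, Units.val_mul, Units.val_mul, hH, hε, ← hγ,
        ← Complex.ofReal_mul, ← Complex.ofReal_mul, ← Complex.ofReal_mul, ← hrel i]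
      congr 1
      ring
    rw [inner_eq_tf, hJc, cj_wt hHc, cj_mapE hp' hq' hr', h6, tf_wt, tf_wt, wt_wt, wt_wt,
      wt_const h5, hC, wt_mapE, ← map_smul, tf_mapE hφ, tf_smul_right, Complex.ofReal_pow,
      tf_comm]
  · apply ContinuousLinearMap.ext
    intro x
    exact hJJ x
  · change cub (wt ε (mapE (scal s t u) x)) = cub x
    rw [cub_wt, cub_mapE hθ, gam]
    linear_combination cub x * (hε2 0 * (ε 1) ^ 2 * (ε 2) ^ 2 + hε2 1 * (ε 2) ^ 2 + hε2 2)
  · change inner ℂ (wt ε (mapE (scal s t u) x)) (wt ε (mapE (scal s t u) y)) = inner ℂ x y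
    rw [inner_eq_tf, inner_eq_tf, hJc, hJt]

end complex

end Vale.Agent.P011.H974.Rl
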