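import Vale.Agent.P011.E6O.Defs
import Vale.Agent.P011.E6H.Hyp
import Vale.Agent.P011.E6H.XDefs
import Mathlib.FieldTheory.Fixed
import Mathlib.LinearAlgebra.Dual.Lemmas

/-!
The symmetric elements of the cyclic algebra span the matrices over the complex numbers.
-/

open Matrix

namespace Vale.Agent.P011.H974.Rl

open Vale.Agent.P011.MPQ Vale.Agent.P011.D4 Vale.Agent.P011.E6
open Vale.Agent.P011.E6O (um InD0)

section dedekind

variable {E : Type} [Field E]

/-- The vectors of the values of distinct embeddings span. -/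
theorem span_emb {χ : Fin 3 → E →+* ℂ} (hχ : Function.Injective χ) :
    Submodule.span ℂ {z : Fin 3 → ℂ | ∃ e : E, z = fun i => χ i e} = ⊤ := by
  by_contra h
  obtain ⟨f, hf0, hf⟩ := Submodule.exists_le_ker_of_lt_top _ (lt_top_iff_ne_top.2 h)
  have h1 : ∀ z : Fin 3 → ℂ, f z = ∑ i, f (Pi.single i 1) * z i := by
    intro z
    rw [LinearMap.pi_apply_eq_sum_univ f z]
    refine Finset.sum_congr rfl fun i _ => ?_
    rw [smul_eq_mul, mul_comm]
    congr 2
    ext j
    rw [Pi.single_apply]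
    simp only [eq_comm]
  have h2 : LinearIndependent ℂ (fun i : Fin 3 => (⇑(χ i : E →* ℂ) : E → ℂ)) := by
    have h3 := linearIndependent_monoidHom E ℂ
    refine h3.comp (fun i : Fin 3 => (χ i : E →* ℂ)) ?_
    intro i j hij
    apply hχ
    ext x
    exact DFunLike.congr_fun hij x
  rw [Fintype.linearIndependent_iff] at h2
  have h4 := h2 (fun i => f (Pi.single i 1)) (by
    funext e
    have h5 : f (fun i => χ i e) = 0 := hf (Submodule.subset_span ⟨e, rfl⟩)
    rw [h1] at h5
    rw [Finset.sum_apply]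
    exact h5)
  apply hf0
  apply LinearMap.ext
  intro z
  rw [h1 z]
  simp only [h4, zero_mul, Finset.sum_const_zero, LinearMap.zero_apply]

end dedekind

section cyc

variable {k E : Type} [Field k] [Field E] [Algebra k E] {ρ σ : E ≃ₐ[k] E} {lam : Eˣ}
  {g : Fin 3 → Eˣ}

theorem inD0_mul {x y : Matrix (Fin 3) (Fin 3) E} (hx : InD0 ρ lam x) (hy : InD0 ρ lam y) :
    InD0 ρ lam (x * y) := by
  unfold InD0 at *
  rw [Matrix.mul_assoc, hy, ← Matrix.mul_assoc, hx, Matrix.mul_assoc, Matrix.map_mul]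

theorem inD0_add {x y : Matrix (Fin 3) (Fin 3) E} (hx : InD0 ρ lam x) (hy : InD0 ρ lam y) :
    InD0 ρ lam (x + y) := by
  unfold InD0 at *
  rw [Matrix.add_mul, hx, hy, ← Matrix.mul_add, ← Matrix.map_add _ (map_add ρ)]

theorem inD0_smul {x : Matrix (Fin 3) (Fin 3) E} {t : E} (ht : ρ t = t) (hx : InD0 ρ lam x) :
    InD0 ρ lam (t • x) := by
  unfold InD0 at *
  rw [Matrix.smul_mul, hx, ← Matrix.mul_smul]
  congr 1
  ext i j
  simp [ht]

theorem inD0_um (h : ρ lam = lam) : InD0 ρ lam (um lam) := by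
  unfold InD0
  congr 1
  ext i j
  fin_cases i <;> fin_cases j <;> simp [um, h]

theorem inD0_one : InD0 ρ lam 1 := by
  unfold InD0
  rw [Matrix.one_mul, Matrix.map_one _ (map_zero ρ) (map_one ρ), Matrix.mul_one]

/-- The diagonal elements. -/
def dgm (ρ : E ≃ₐ[k] E) (e : E) : Matrix (Fin 3) (Fin 3) E :=
  Matrix.diagonal ![e, ρ e, ρ (ρ e)]

theorem inD0_dgm (h3 : ∀ x, ρ (ρ (ρ x)) = x) (e : E) : InD0 ρ lam (dgm ρ e) := by
  unfold InD0 dgm
  ext i j
  fin_cases i <;> fin_cases j <;> simp [um, Matrix.mul_apply, Fin.sum_univ_three, h3, mul_comm]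

theorem gram {s : E} (h1 : (g 1 : E) = s * ρ (g 0)) (h2 : (g 2 : E) = s * ρ (g 1))
    (h0 : (g 0 : E) = lam * σ lam * s * ρ (g 2)) :
    ((um lam).map σ)ᵀ * (Matrix.diagonal fun i => (g i : E)) * um lam =
      s • (Matrix.diagonal fun i => ρ (g i : E)) := by
  have hl := lam.ne_zero
  have hl' : σ (lam : E) ≠ 0 := (map_ne_zero σ).2 hl
  ext i j
  fin_cases i <;> fin_cases j <;>
    simp [um, Matrix.mul_apply, Fin.sum_univ_three]
  · exact h1
  · exact h2
  · rw [h0]
    field_simp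

/-- The adjoint for the form `g`. -/
def adg (σ : E ≃ₐ[k] E) (g : Fin 3 → Eˣ) (x : Matrix (Fin 3) (Fin 3) E) :
    Matrix (Fin 3) (Fin 3) E :=
  (Matrix.diagonal fun i => ((g i)⁻¹ : E)) * (x.map σ)ᵀ * (Matrix.diagonal fun i => (g i : E))

theorem dginv (f : Fin 3 → Eˣ) : (Matrix.diagonal fun i => ((f i)⁻¹ : E)) *
    (Matrix.diagonal fun i => (f i : E)) = 1 := by
  rw [Matrix.diagonal_mul_diagonal, ← Matrix.diagonal_one]
  congr 1
  funext i
  exact inv_mul_cancel₀ (f i).ne_zero

theorem dginv' (f : Fin 3 → Eˣ) : (Matrix.diagonal fun i => (f i : E)) *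
    (Matrix.diagonal fun i => ((f i)⁻¹ : E)) = 1 := by
  rw [Matrix.diagonal_mul_diagonal, ← Matrix.diagonal_one]
  congr 1
  funext i
  exact mul_inv_cancel₀ (f i).ne_zero

theorem inD0_adg (hcomm : ∀ x, ρ (σ x) = σ (ρ x)) {s : E} (h1 : (g 1 : E) = s * ρ (g 0))
    (h2 : (g 2 : E) = s * ρ (g 1)) (h0 : (g 0 : E) = lam * σ lam * s * ρ (g 2))
    {x : Matrix (Fin 3) (Fin 3) E} (hx : InD0 ρ lam x) : InD0 ρ lam (adg σ g x) := by
  have hs : s ≠ 0 := by
    rintro rfl
    exact (g 1).ne_zero (by rw [h1, zero_mul])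
  have hgram := gram h1 h2 h0
  set G : Matrix (Fin 3) (Fin 3) E := Matrix.diagonal fun i => (g i : E) with hG
  set G' : Matrix (Fin 3) (Fin 3) E := Matrix.diagonal fun i => ρ (g i : E) with hG'
  set I : Matrix (Fin 3) (Fin 3) E := Matrix.diagonal fun i => ((g i)⁻¹ : E) with hI
  set I' : Matrix (Fin 3) (Fin 3) E := Matrix.diagonal fun i => (ρ (g i : E))⁻¹ with hI'
  set U : Matrix (Fin 3) (Fin 3) E := ((um lam).map σ)ᵀ with hU
  have e1 : G' * I' = 1 := by
    rw [hG', hI', Matrix.diagonal_mul_diagonal, ← Matrix.diagonal_one]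
    congr 1
    funext i
    exact mul_inv_cancel₀ ((map_ne_zero ρ).2 (g i).ne_zero)
  have e0 : G * I = 1 := dginv' g
  have hY : U * (x.map σ)ᵀ = ((x.map ρ).map σ)ᵀ * U := by
    have h3 : (x * um lam).map σ = (um lam * x.map ρ).map σ := by rw [hx]
    rw [Matrix.map_mul, Matrix.map_mul] at h3
    have h4 := congrArg Matrix.transpose h3
    rw [Matrix.transpose_mul, Matrix.transpose_mul] at h4
    exact h4
  have hmap : (adg σ g x).map ρ = I' * ((x.map ρ).map σ)ᵀ * G' := by
    ext i j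
    simp [adg, hI', hG', Matrix.mul_apply, Matrix.diagonal_apply, hcomm]
  -- left cancellation
  have hinv : (s⁻¹ • (um lam * I')) * (U * G) = 1 := by
    apply mul_eq_one_comm.1
    rw [Matrix.mul_smul, ← Matrix.mul_assoc, hgram, Matrix.smul_mul, e1, smul_smul,
      inv_mul_cancel₀ hs, one_smul]
  have key : U * G * (adg σ g x * um lam) = U * G * (um lam * (adg σ g x).map ρ) := by
    have l1 : U * G * (adg σ g x * um lam) = s • (((x.map ρ).map σ)ᵀ * G') := by
      calc U * G * (adg σ g x * um lam)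
          = U * (G * I) * (x.map σ)ᵀ * G * um lam := by
            rw [adg]
            simp only [Matrix.mul_assoc]
            rfl
        _ = (U * (x.map σ)ᵀ) * G * um lam := by rw [e0, Matrix.mul_one]
        _ = ((x.map ρ).map σ)ᵀ * (U * G * um lam) := by
            rw [hY]
            simp only [Matrix.mul_assoc]
        _ = _ := by rw [hgram, Matrix.mul_smul]
    have l2 : U * G * (um lam * (adg σ g x).map ρ) = s • (((x.map ρ).map σ)ᵀ * G') := by
      calc U * G * (um lam * (adg σ g x).map ρ) = (U * G * um lam) * (adg σ g x).map ρ := by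
            simp only [Matrix.mul_assoc]
        _ = s • ((G' * I') * ((x.map ρ).map σ)ᵀ * G') := by
            rw [hgram, hmap, Matrix.smul_mul]
            simp only [Matrix.mul_assoc]
        _ = _ := by rw [e1, Matrix.one_mul]
    rw [l1, l2]
  unfold InD0
  calc adg σ g x * um lam = (s⁻¹ • (um lam * I')) * (U * G) * (adg σ g x * um lam) := by
        rw [hinv, Matrix.one_mul]
    _ = (s⁻¹ • (um lam * I')) * (U * G * (adg σ g x * um lam)) := Matrix.mul_assoc _ _ _
    _ = (s⁻¹ • (um lam * I')) * (U * G * (um lam * (adg σ g x).map ρ)) := by rw [key]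
    _ = (s⁻¹ • (um lam * I')) * (U * G) * (um lam * (adg σ g x).map ρ) :=
        (Matrix.mul_assoc _ _ _).symm
    _ = _ := by rw [hinv, Matrix.one_mul]

/-- The entries of the adjoint. -/
theorem adg_apply (x : Matrix (Fin 3) (Fin 3) E) (i j : Fin 3) :
    adg σ g x i j = (g i : E)⁻¹ * σ (x j i) * g j := by
  simp [adg, Matrix.mul_apply, Matrix.diagonal_apply]

/-- The matrix is symmetric for the involution attached to the weights. -/
def SyG (σ : E ≃ₐ[k] E) (g : Fin 3 → Eˣ) (m : Matrix (Fin 3) (Fin 3) E) : Prop :=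
  (m.map σ)ᵀ * (Matrix.diagonal fun i => (g i : E)) = (Matrix.diagonal fun i => (g i : E)) * m

theorem syG_iff {m : Matrix (Fin 3) (Fin 3) E} :
    SyG σ g m ↔ ∀ i j, σ (m j i) * g j = g i * m i j := by
  unfold SyG
  rw [← Matrix.ext_iff]
  refine forall_congr' fun i => forall_congr' fun j => ?_
  rw [Matrix.mul_diagonal, Matrix.diagonal_mul]
  rfl

theorem syG_add_adg (hσ : ∀ x, σ (σ x) = x) (hσg : ∀ i, σ (g i) = g i)
    (x : Matrix (Fin 3) (Fin 3) E) : SyG σ g (x + adg σ g x) := by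
  rw [syG_iff]
  intro i j
  have hi := (g i).ne_zero
  have hj := (g j).ne_zero
  rw [Matrix.add_apply, Matrix.add_apply, adg_apply, adg_apply, map_add, map_mul, map_mul, hσ,
    map_inv₀, hσg, hσg]
  field_simp
  ring

theorem syG_sub_adg (hσ : ∀ x, σ (σ x) = x) (hσg : ∀ i, σ (g i) = g i) {t : E} (ht : t ≠ 0)
    (hσt : σ t = -t) (x : Matrix (Fin 3) (Fin 3) E) : SyG σ g (t⁻¹ • (x - adg σ g x)) := by
  rw [syG_iff]
  intro i j
  have hi := (g i).ne_zero
  have hj := (g j).ne_zero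
  rw [Matrix.smul_apply, Matrix.smul_apply, Matrix.sub_apply, Matrix.sub_apply, adg_apply,
    adg_apply, smul_eq_mul, smul_eq_mul, map_mul, map_sub, map_mul, map_mul, hσ, map_inv₀,
    map_inv₀, hσg, hσg, hσt]
  field_simp
  ring

end cyc

/-- The symmetric elements of the cyclic algebra span the matrices over the complex numbers. -/
theorem span_syG {k E : Type} [Field k] [Field E] [CharZero E] [Algebra k E] {ρ σ : E ≃ₐ[k] E}
    {kap : kˣ} {lam : Eˣ} {g : Fin 3 → Eˣ} (hS : E6H.IsSextic ρ σ kap)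
    (hg : E6H.IsForm ρ σ lam g) (φ : E →+* ℂ) (M : Matrix (Fin 3) (Fin 3) ℂ) :
    M ∈ Submodule.span ℂ {z | ∃ x : Matrix (Fin 3) (Fin 3) E, InD0 ρ lam x ∧ SyG σ g x ∧
      z = x.map φ} := by
  obtain ⟨s, -, h1, h2, h0⟩ := hg.rel
  obtain ⟨th, hth, hρth, hσth⟩ := hS.sq
  have hth0 : th ≠ 0 := by
    rintro rfl
    have h3 : algebraMap k E kap ≠ 0 := (map_ne_zero _).2 kap.ne_zero
    exact h3 (by rw [← hth]; ring)
  set W : Submodule ℂ (Matrix (Fin 3) (Fin 3) ℂ) :=
    Submodule.span ℂ {z | ∃ x : Matrix (Fin 3) (Fin 3) E, InD0 ρ lam x ∧ SyG σ g x ∧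
      z = x.map φ} with hW
  -- the elements of the algebra
  have hD : ∀ x : Matrix (Fin 3) (Fin 3) E, InD0 ρ lam x → x.map φ ∈ W := by
    intro x hx
    have hx' := inD0_adg hS.comm h1 h2 h0 hx
    have m1 : (x + adg σ g x).map φ ∈ W :=
      Submodule.subset_span ⟨_, inD0_add hx hx', syG_add_adg hS.σ2 hg.σg x, rfl⟩
    have hx'' : InD0 ρ lam (th⁻¹ • (x - adg σ g x)) := by
      apply inD0_smul
      · rw [map_inv₀, hρth]
      · rw [sub_eq_add_neg]
        refine inD0_add hx ?_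
        have := inD0_smul (t := (-1 : E)) (by rw [map_neg, map_one]) hx'
        rwa [neg_smul, one_smul] at this
    have m2 : (th⁻¹ • (x - adg σ g x)).map φ ∈ W :=
      Submodule.subset_span ⟨_, hx'', syG_sub_adg hS.σ2 hg.σg hth0 hσth x, rfl⟩
    have e : x.map φ = (2⁻¹ : ℂ) • ((x + adg σ g x).map φ +
        φ th • (th⁻¹ • (x - adg σ g x)).map φ) := by
      have h3 : φ th ≠ 0 := (map_ne_zero φ).2 hth0
      ext i j
      simp only [Matrix.map_apply, Matrix.smul_apply, Matrix.add_apply, Matrix.sub_apply,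
        smul_eq_mul, map_add, map_sub, map_mul, map_inv₀]
      field_simp
      ring
    rw [e]
    exact W.smul_mem _ (W.add_mem m1 (W.smul_mem _ m2))
  -- the embeddings
  set χ : Fin 3 → E →+* ℂ := ![φ, φ.comp (ρ : E →+* E), φ.comp ((ρ : E →+* E).comp ρ)] with hχ
  obtain ⟨w, hw⟩ := hS.hρ
  have n1 : φ (ρ w) ≠ φ w := fun h => hw (φ.injective h)
  have n2 : φ (ρ (ρ w)) ≠ φ w := fun h => hw (by
    have h3 := φ.injective h
    have h4 := congrArg ρ h3
    rw [hS.ρ3] at h4
    exact h4.symm)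
  have n3 : φ (ρ (ρ w)) ≠ φ (ρ w) := fun h => hw (ρ.injective (φ.injective h))
  have hinj : Function.Injective χ := by
    intro i j hij
    have h3 := DFunLike.congr_fun hij w
    fin_cases i <;> fin_cases j <;> first | rfl | (exfalso; revert h3)
    · exact fun h => n1 h.symm
    · exact fun h => n2 h.symm
    · exact fun h => n1 h
    · exact fun h => n3 h.symm
    · exact fun h => n2 h
    · exact fun h => n3 h
  have htop := span_emb hinj
  -- the products of diagonal matrices with the powers of `u`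
  have hT : ∀ x : Matrix (Fin 3) (Fin 3) E, InD0 ρ lam x → ∀ z : Fin 3 → ℂ,
      Matrix.diagonal z * x.map φ ∈ W := by
    intro x hx z
    let T : (Fin 3 → ℂ) →ₗ[ℂ] Matrix (Fin 3) (Fin 3) ℂ :=
      (LinearMap.mulRight ℂ (x.map φ)).comp (Matrix.diagonalLinearMap (Fin 3) ℂ ℂ)
    have h3 : Submodule.span ℂ {z : Fin 3 → ℂ | ∃ e : E, z = fun i => χ i e} ≤
        W.comap T := by
      rw [Submodule.span_le]
      rintro z ⟨e, rfl⟩
      change Matrix.diagonal (fun i => χ i e) * x.map φ ∈ W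
      have h4 : Matrix.diagonal (fun i => χ i e) * x.map φ = (dgm ρ e * x).map φ := by
        rw [Matrix.map_mul]
        congr 1
        ext i j
        rw [dgm, Matrix.map_apply, Matrix.diagonal_apply, Matrix.diagonal_apply]
        split_ifs with h
        · fin_cases i <;> rfl
        · exact (map_zero φ).symm
      rw [h4]
      exact hD _ (inD0_mul (inD0_dgm hS.ρ3 e) hx)
    rw [htop] at h3
    exact h3 (Submodule.mem_top (x := z))
  have hu := inD0_um (lam := lam) hg.ρlam
  have hl : φ (lam : E) ≠ 0 := (map_ne_zero φ).2 lam.ne_zero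
  have e : M = Matrix.diagonal ![M 0 0, M 1 1, M 2 2] * (1 : Matrix (Fin 3) (Fin 3) E).map φ +
      Matrix.diagonal ![M 0 2 * φ lam, M 1 0, M 2 1] * (um lam).map φ +
      Matrix.diagonal ![M 0 1 * φ lam, M 1 2 * φ lam, M 2 0] * (um lam * um lam).map φ := by
    ext i j
    fin_cases i <;> fin_cases j <;>
      simp [um, Matrix.mul_apply, Matrix.diagonal_apply, hl]
  rw [e]
  exact W.add_mem (W.add_mem (hT _ inD0_one _) (hT _ hu _)) (hT _ (inD0_mul hu hu) _)

end Vale.Agent.P011.H974.Rl
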