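import Vale.Agent.P011.E6W.H964.Xm
import Vale.Agent.P011.H974.Rl.Span0

/-!
The symmetric elements of the cyclic algebra span the matrices over the complex numbers.
-/

namespace Vale.Agent.P011.H974.Rl

open Vale.Agent.P011.MPQ Vale.Agent.P011.D4 Vale.Agent.P011.E6

/-- The symmetric elements of the cyclic algebra span the matrices over the complex numbers. -/
theorem span_sy {k E : Type} [Field k] [NumberField k] [Field E] [NumberField E] [Algebra k E]
    {ρ σ : E ≃ₐ[k] E} {kap : kˣ} {lam : Eˣ} {g : Fin 3 → Eˣ} (hS : E6H.IsSextic ρ σ kap)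
    (hg : E6H.IsForm ρ σ lam g) (φ : E →+* ℂ) (M : Matrix (Fin 3) (Fin 3) ℂ) :
    M ∈ Submodule.span ℂ {z | ∃ x : Matrix (Fin 3) (Fin 3) E, E6O.InD0 ρ lam x ∧
      E6W.H964.Sy σ g x ∧ z = x.map φ} :=
  span_syG hS hg φ M

end Vale.Agent.P011.H974.Rl
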